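import Vale.Agent.P287D.Tg.Dich
import Vale.Agent.P287D.Pe.Ret
import Vale.Agent.P287D.Pc.Ns
import Vale.Agent.P287D.In.Desc
import Vale.Agent.P287D.Iso.Int
import Vale.Agent.P287D.Ba.PosOn
import Vale.Agent.P287D.Ba.Hy

/-!
# P287D: two conjugates of a generic divisor are numerically equivalent; the pencil
-/

set_option linter.all false

open Set
open Vale.Agent.P297 (Place)
open Vale.Agent.P277Z Vale.Agent.P277Z.FI

noncomputable section

namespace Vale.Agent.P287D.Pq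

open Ba Ba.Fg

variable {n : ℕ} {K K' : Type} [Field K] [Algebra ℂ K] [Field K'] [Algebra ℂ K']
  {M : Mdl (n + 1) 0 K} {N : BD K}

/-- numerically trivial integral divisors are effective up to exceptional divisors -/
theorem sec (hM : M.Proj) {U : Set (Place K)} {W E D : P277Z.Div K} (fU : U.Finite) (sU : M.Snc U)
    (kU : ∀ Q, KM M Q ≠ 0 → Q ∈ U) (hW : M.Dv W) (wU : (W.support : Set (Place K)) ⊆ U)
    (hE : Kd M (bar M W) E) (eU : ∀ Q, E Q ≠ 0 → Q ∈ U) (hk : Klt (n + 1) (-bar M W))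
    (hb : Bdy n (bar M W) (-bar M W)) (hD : D ∈ F5.NT M) :
    ∃ f : K, f ≠ 0 ∧ ∀ R : Pl K, On n (bar M W) R → 0 ≤ (R.ord f : ℝ) + D R.toPlace := by
  have lt : ∀ Q, (-W - KM M) Q < 1 := fun Q => by
    by_cases p : M.Pr Q
    · obtain ⟨P, rfl⟩ := Bm.pl_of_pr hM p
      have := hk P
      rw [dsc, Pi.sub_apply, KM_pr hM p, Pi.neg_apply, bar_pr hM p] at this
      rw [Finsupp.sub_apply, Finsupp.neg_apply]
      linarith
    · simp [dv_iff.1 hW Q p, dv_iff.1 (KM_dv hM) Q p]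
  obtain ⟨ε, e0, e1, e2⟩ := room (B := -W - KM M + up (-W - KM M)) (E := E)
    fun Q => (up_bd le_rfl (lt Q)).2
  have E0 : 0 ≤ E := let ⟨_, _, _, _, _, a, _⟩ := hE; a
  have dF : M.Dv (up (-W - KM M)) := dv_iff.2 fun Q p => up_zero (by
    simp [dv_iff.1 hW Q p, dv_iff.1 (KM_dv hM) Q p])
  have k := I.constA (n + 1) 0 K M hM (cpt M) (KM M) (-W - KM M + up (-W - KM M) + ε • E)
    (up (-W - KM M)) D U ⟨KM_isCan hM, fU, sU⟩ ⟨fun Q hQ => by_contra fun k =>
      Finsupp.mem_support_iff.1 hQ (by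
        have a : (-W - KM M) Q = 0 := by
          simp [of_not_not (mt (kU Q) k), Finsupp.notMem_support_iff.1 (mt (@wU Q) k)]
        rw [Finsupp.add_apply, Finsupp.add_apply, up_zero a.ge, a]
        simp [of_not_not (mt (eU Q) k)]),
      fun Q => ⟨add_nonneg (up_bd le_rfl (lt Q)).1 (mul_nonneg e0.le (E0 Q)), e2 Q⟩⟩ dF
    (fun Q => ⟨_, up_apply _ Q⟩) (by
      rw [show up (-W - KM M) - KM M - (-W - KM M + up (-W - KM M) + ε • E) = W - ε • E by abel]
      exact hE.amp hM hW rfl e0 e1) hD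
  have := (pc hM).fin (up (-W - KM M))
  have p : 0 < F5.h0 M (up (-W - KM M)) := Module.finrank_pos_iff_exists_ne_zero.2
    ⟨⟨1, FI.mem_H0.2 (.inr fun Q _ => by simpa using up_nonneg _ Q)⟩,
      fun e => one_ne_zero (congrArg Subtype.val e)⟩
  have := (pc hM).fin (up (-W - KM M) + D)
  obtain ⟨⟨f, hf⟩, f0⟩ := Module.finrank_pos_iff_exists_ne_zero.1 (k ▸ p)
  have f1 : f ≠ 0 := fun e => f0 (Subtype.ext e)
  refine ⟨f, f1, fun R hR => ?_⟩
  have q := pr_of_on hM hR
  have a := hb R hR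
  rw [dsc, Pi.sub_apply, KM_pr hM q, Pi.neg_apply, bar_pr hM q] at a
  have := (FI.mem_H0.1 hf).resolve_left f1 _ q
  rwa [Finsupp.add_apply, up_zero (by
    rw [Finsupp.sub_apply, Finsupp.neg_apply]; linarith), zero_add] at this

/-- **PEN** -/
theorem pen : Tg.PEN := by
  classical
  intro n K K' _ _ _ _ φ N P hK hK' sN bN hk hb h t on
  obtain ⟨M, U, E, W, hM, fU, sU, kU, hE, hW⟩ := nbF hK (ι := Unit) (κ := Unit)
    (fun _ => ⟨sN.nef, bN⟩) (β := fun _ => N) fun _ => sN.car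
  obtain ⟨w1, rfl, w3, -⟩ := hW ()
  obtain ⟨A, hA⟩ := (pc hM).pol
  have sA := smp_amp hM hA.amp
  obtain ⟨T, T1, T2⟩ := Pc.fin hK sA
  have fB := (T.finite_toSet.insert (bar M A)).insert (bar M (W ()))
  have cB : insert (bar M (W ())) (insert (bar M A) (T : Set (BD K))) ⊆ Car K := by
    rintro _ (rfl | rfl | k)
    exacts [sN.car, sA.car, Gs.dsc_car sA (T1 _ k)]
  obtain ⟨Θ, s, -, e⟩ := Pe.ret_pb h hK hK' finite_empty fB cB
  obtain ⟨Θ', s', a, e'⟩ := Pe.ret_pb h hK hK' (finite_singleton (s.pl P).t) fB cB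
  have ne : s'.pl P ≠ s.pl P := fun k => by
    have := s'.ord_plc P.toPlace (φ (s.pl P).t)
    rw [a _ rfl, t.ord] at this
    have b : (s'.pl P).ord (s.pl P).t = 0 := this
    rw [k, (s.pl P).ord_t] at b
    exact one_ne_zero b
  have o : On n (bar M (W ())) (s.pl P) := e _ (.inl rfl) ▸ (s.on_pl In.hy hK').2 on
  have o' : On n (bar M (W ())) (s'.pl P) := e' _ (.inl rfl) ▸ (s'.on_pl In.hy hK').2 on
  have p := pr_of_on hM o
  have p' := pr_of_on hM o'
  have u := (trc_δ p).hull hM hA.amp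
  obtain ⟨γ, g1, g2⟩ := T2 _ u.1
  obtain ⟨η, hη⟩ := s.pb_sur (bar M (Finsupp.single (s.pl P).toPlace 1))
  have sp : ∀ Ψ : K' →+* K, (∀ β ∈ T, pb Ψ (pb φ β) = β) → pb Ψ (pb φ γ) = γ := fun Ψ k => by
    clear g2
    induction g1 using Submodule.span_induction with
    | mem x m => exact k x m
    | zero => rw [pb_zero, pb_zero]
    | add x y _ _ a b => rw [pb_add, pb_add, a, b]
    | smul c x _ a => rw [pb_smul, pb_smul, a]
  rw [← e _ (.inr (.inl rfl)), ← s.pb_δ, ← hη, s.hull In.hy hK', ← s'.hull In.hy hK',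
    e' _ (.inr (.inl rfl)), s'.pb_δ, hull_iff hM hA.amp] at u
  obtain ⟨D, d1, d2⟩ := u
  obtain rfl := d1.unique hM (trc_δ p')
  have g3 := g2
  rw [← sp Θ fun β m => e β (.inr (.inr m)), ← hη, ← pb_sub, s.num, ← s'.num, pb_sub, d2,
    sp Θ' fun β m => e' β (.inr (.inr m))] at g3
  have nu : Num (bar M (Finsupp.single (s.pl P).toPlace 1 - Finsupp.single (s'.pl P).toPlace 1)) := by
    have := g2.add g3.neg
    rwa [← sub_eq_add_neg, sub_sub_sub_cancel_right, ← map_sub] at this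
  obtain ⟨f, f0, hf⟩ := sec hM fU sU kU w1 w3 (hE ()).1 (hE ()).2 hk hb
    ⟨dv_sub (dv_single p 1) (dv_single p' 1), IsInt.sub (IsInt.single _) (IsInt.single _),
    In.nef_desc hM nu.1, In.nef_desc hM (by rw [map_neg]; exact nu.2)⟩
  have r : ∀ R, R ≠ s.pl P → On n (bar M (W ())) R →
      Finsupp.single (s'.pl P).toPlace (1 : ℝ) R.toPlace ≤ R.ord f := fun R k c => by
    have := hf R c
    rw [Finsupp.sub_apply, Finsupp.single_eq_of_ne (pl_inj.ne k)] at this
    linarith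
  have r0 : ∀ R, R ≠ s.pl P → On n (bar M (W ())) R → (0 : ℝ) ≤ R.ord f := fun R k c =>
    (Finsupp.single_nonneg.2 zero_le_one _).trans (r R k c)
  refine ⟨s.pl P, f, o, ?_, ?_, fun R k c => by exact_mod_cast r0 R k c⟩
  · have := s.cf_pl In.hy hK' P fun _ => pb φ (bar M (W ()))
    simp only [e _ (.inl rfl)] at this
    exact this
  · have b := hf _ o
    rw [Finsupp.sub_apply, Finsupp.single_eq_same, Finsupp.single_eq_of_ne (pl_inj.ne ne.symm),
      sub_zero] at b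
    have b' : -1 ≤ (s.pl P).ord f := by exact_mod_cast (neg_le_iff_add_nonneg.2 b)
    refine le_antisymm (by_contra fun c => ?_) b'
    have z := prn_zero hK (dv_mem_Prn f) (Pr.hart res' hK sN bN (Gs.dsc_prn sN (dv_mem_Prn f))
      fun R k => if g : R = s.pl P then by
        subst g
        exact Int.cast_nonneg (by omega) else r0 R g k)
    have := r _ ne o'
    rw [Finsupp.single_eq_same, show (((s'.pl P).ord f : ℤ) : ℝ) = 0 from congrFun z _] at this
    exact absurd this (by norm_num)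

end Vale.Agent.P287D.Pq
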